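import Vale.Agent.P235.XC.Defs

/-!
# P235, line XC, row [X5a]: the geometry at one block (helper666)
-/

set_option autoImplicit false

namespace Vale.Agent.P235.XC.H666

open SimpleGraph Vale.Agent.P235.H134 Vale.Agent.P235.XC

theorem grid_adj {n : ℕ} {p q : Fin n × Fin n} :
    (grid n).Adj p q ↔
      ((p.1.val + 1 = q.1.val ∨ q.1.val + 1 = p.1.val) ∧ p.2.val = q.2.val) ∨
      ((p.2.val + 1 = q.2.val ∨ q.2.val + 1 = p.2.val) ∧ p.1.val = q.1.val) := by
  unfold grid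
  simp only [SimpleGraph.boxProd_adj, SimpleGraph.pathGraph_adj, Fin.ext_iff]

/-- a rectangle is connected -/
theorem rect_conn {n : ℕ} (a1 a2 c1 c2 : ℕ) {S : Set (Fin n × Fin n)}
    (hS : ∀ x, x ∈ S ↔ (a1 ≤ x.1.val ∧ x.1.val < a2) ∧ c1 ≤ x.2.val ∧ x.2.val < c2)
    (ha : a1 < a2) (hc : c1 < c2) (han : a1 < n) (hcn : c1 < n) :
    ((grid n).induce S).Connected := by
  have hb : ((⟨a1, han⟩, ⟨c1, hcn⟩) : Fin n × Fin n) ∈ S :=
    (hS _).2 ⟨⟨le_rfl, ha⟩, le_rfl, hc⟩
  have key : ∀ m : ℕ, ∀ x (hx : x ∈ S), x.1.val + x.2.val = a1 + c1 + m →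
      ((grid n).induce S).Reachable ⟨_, hb⟩ ⟨x, hx⟩ := by
    intro m
    induction m with
    | zero =>
      intro x hx h
      obtain ⟨⟨h1, h2⟩, h3, h4⟩ := (hS x).1 hx
      have e : x = (⟨a1, han⟩, ⟨c1, hcn⟩) :=
        Prod.ext (Fin.ext (show x.1.val = a1 by omega)) (Fin.ext (show x.2.val = c1 by omega))
      subst e
      exact Reachable.refl _
    | succ m ih =>
      intro x hx h
      obtain ⟨⟨h1, h2⟩, h3, h4⟩ := (hS x).1 hx
      have l1 := x.1.isLt
      have l2 := x.2.isLt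
      by_cases h5 : a1 < x.1.val
      · have hy : ((⟨x.1.val - 1, by omega⟩, x.2) : Fin n × Fin n) ∈ S :=
          (hS _).2 ⟨⟨show a1 ≤ x.1.val - 1 by omega, show x.1.val - 1 < a2 by omega⟩, h3, h4⟩
        refine (ih _ hy (show x.1.val - 1 + x.2.val = a1 + c1 + m by omega)).trans
          (Adj.reachable ?_)
        show (grid n).Adj _ _
        rw [grid_adj]
        exact Or.inl ⟨Or.inl (show x.1.val - 1 + 1 = x.1.val by omega), rfl⟩
      · have hy : ((x.1, ⟨x.2.val - 1, by omega⟩) : Fin n × Fin n) ∈ S :=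
          (hS _).2 ⟨⟨h1, h2⟩, show c1 ≤ x.2.val - 1 by omega, show x.2.val - 1 < c2 by omega⟩
        refine (ih _ hy (show x.1.val + (x.2.val - 1) = a1 + c1 + m by omega)).trans
          (Adj.reachable ?_)
        show (grid n).Adj _ _
        rw [grid_adj]
        exact Or.inr ⟨Or.inl (show x.2.val - 1 + 1 = x.2.val by omega), rfl⟩
  rw [connected_iff_exists_forall_reachable]
  refine ⟨⟨_, hb⟩, fun x => ?_⟩
  obtain ⟨⟨h1, h2⟩, h3, h4⟩ := (hS x.1).1 x.2
  exact key (x.1.1.val + x.1.2.val - (a1 + c1)) x.1 x.2 (by omega)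

theorem bs_bd (r : ℕ) (k : Fin 64) : 5 ≤ bs r k.val ∧ bs r k.val + (r + 6) + 5 ≤ RX r := by
  have h : (k.val + 1) * (r + 6) ≤ 64 * (r + 6) := Nat.mul_le_mul_right _ k.isLt
  have e : (k.val + 1) * (r + 6) = k.val * (r + 6) + (r + 6) := by ring
  unfold bs RX
  omega

theorem bs_sep (r : ℕ) (k l : Fin 64) : k = l ∨ bs r k.val + (r + 6) ≤ bs r l.val ∨
    bs r l.val + (r + 6) ≤ bs r k.val := by
  rcases lt_trichotomy k.val l.val with h | h | h
  · right; left
    have h1 : (k.val + 1) * (r + 6) ≤ l.val * (r + 6) := Nat.mul_le_mul_right _ h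
    have e : (k.val + 1) * (r + 6) = k.val * (r + 6) + (r + 6) := by ring
    unfold bs
    omega
  · exact Or.inl (Fin.ext h)
  · right; right
    have h1 : (l.val + 1) * (r + 6) ≤ k.val * (r + 6) := Nat.mul_le_mul_right _ h
    have e : (l.val + 1) * (r + 6) = l.val * (r + 6) + (r + 6) := by ring
    unfold bs
    omega

theorem lin_conn (r : ℕ) (k : Fin 64) (i : Fin 4) :
    ((grid (RX r)).induce (linX r k i)).Connected := by
  obtain ⟨h1, h2⟩ := bs_bd r k
  fin_cases i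
  · refine rect_conn (bs r k.val + 1) (bs r k.val + 2) (bs r k.val + (r + 2)) (RX r) ?_
      (by omega) (by omega) (by omega) (by omega)
    intro x
    have l1 := x.1.isLt
    have l2 := x.2.isLt
    simp [linX]
    omega
  · refine rect_conn (bs r k.val + (r + 2)) (RX r) (bs r k.val + 1) (bs r k.val + 2) ?_
      (by omega) (by omega) (by omega) (by omega)
    intro x
    have l1 := x.1.isLt
    have l2 := x.2.isLt
    simp [linX]
    omega
  · refine rect_conn (bs r k.val + 1) (bs r k.val + 2) 0 (bs r k.val) ?_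
      (by omega) (by omega) (by omega) (by omega)
    intro x
    have l1 := x.1.isLt
    have l2 := x.2.isLt
    simp [linX]
    omega
  · refine rect_conn 0 (bs r k.val) (bs r k.val + 1) (bs r k.val + 2) ?_
      (by omega) (by omega) (by omega) (by omega)
    intro x
    have l1 := x.1.isLt
    have l2 := x.2.isLt
    simp [linX]
    omega

theorem arc_conn (r : ℕ) (k : Fin 64) (i : Fin 4) :
    ((grid (RX r)).induce (arcX r k i)).Connected := by
  obtain ⟨h1, h2⟩ := bs_bd r k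
  fin_cases i
  · refine rect_conn (bs r k.val) (bs r k.val + (r + 1)) (bs r k.val + (r + 1))
      (bs r k.val + (r + 2)) ?_ (by omega) (by omega) (by omega) (by omega)
    intro x
    simp [arcX, blkX]
    omega
  · refine rect_conn (bs r k.val + (r + 1)) (bs r k.val + (r + 2)) (bs r k.val + 1)
      (bs r k.val + (r + 2)) ?_ (by omega) (by omega) (by omega) (by omega)
    intro x
    simp [arcX, blkX]
    omega
  · refine rect_conn (bs r k.val + 1) (bs r k.val + (r + 2)) (bs r k.val)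
      (bs r k.val + 1) ?_ (by omega) (by omega) (by omega) (by omega)
    intro x
    simp [arcX, blkX]
    omega
  · refine rect_conn (bs r k.val) (bs r k.val + 1) (bs r k.val)
      (bs r k.val + (r + 1)) ?_ (by omega) (by omega) (by omega) (by omega)
    intro x
    simp [arcX, blkX]
    omega

theorem lin_iff {r : ℕ} {k : Fin 64} {i : Fin 4} {x : Pos r} : x ∈ linX r k i ↔
    (i.val = 0 ∧ x.1.val = bs r k.val + 1 ∧ bs r k.val + (r + 2) ≤ x.2.val) ∨
    (i.val = 1 ∧ bs r k.val + (r + 2) ≤ x.1.val ∧ x.2.val = bs r k.val + 1) ∨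
    (i.val = 2 ∧ x.1.val = bs r k.val + 1 ∧ x.2.val < bs r k.val) ∨
    (i.val = 3 ∧ x.1.val < bs r k.val ∧ x.2.val = bs r k.val + 1) := by
  simp only [linX, Set.mem_ofPred_eq, Fin.ext_iff]
  rfl

theorem arc_iff {r : ℕ} {k : Fin 64} {i : Fin 4} {x : Pos r} : x ∈ arcX r k i ↔
    (bs r k.val ≤ x.1.val ∧ x.1.val < bs r k.val + (r + 2) ∧ bs r k.val ≤ x.2.val ∧
      x.2.val < bs r k.val + (r + 2)) ∧
    ((i.val = 0 ∧ x.2.val = bs r k.val + (r + 1) ∧ x.1.val < bs r k.val + (r + 1)) ∨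
    (i.val = 1 ∧ x.1.val = bs r k.val + (r + 1) ∧ bs r k.val < x.2.val) ∨
    (i.val = 2 ∧ x.2.val = bs r k.val ∧ bs r k.val < x.1.val) ∨
    (i.val = 3 ∧ x.1.val = bs r k.val ∧ x.2.val < bs r k.val + (r + 1))) := by
  simp only [arcX, blkX, Set.mem_ofPred_eq, Fin.ext_iff]
  rfl

theorem blk_iff {r : ℕ} {k : Fin 64} {x : Pos r} : x ∈ blkX r k ↔
    bs r k.val ≤ x.1.val ∧ x.1.val < bs r k.val + (r + 2) ∧ bs r k.val ≤ x.2.val ∧
      x.2.val < bs r k.val + (r + 2) := Iff.rfl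

/-- the roots -/
def rx (r : ℕ) (k : Fin 64) : Fin 4 → Pos r :=
  have h1 := (bs_bd r k).1
  have h2 := (bs_bd r k).2
  ![(⟨bs r k.val + 1, by omega⟩, ⟨bs r k.val + (r + 2), by omega⟩),
    (⟨bs r k.val + (r + 2), by omega⟩, ⟨bs r k.val + 1, by omega⟩),
    (⟨bs r k.val + 1, by omega⟩, ⟨bs r k.val - 1, by omega⟩),
    (⟨bs r k.val - 1, by omega⟩, ⟨bs r k.val + 1, by omega⟩)]

/-- the inner grid -/
def ix (r : ℕ) (k : Fin 64) (p : Fin r × Fin r) : Pos r :=
  have h1 := (bs_bd r k).1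
  have h2 := (bs_bd r k).2
  (⟨bs r k.val + 1 + p.1.val, by have := p.1.isLt; omega⟩,
    ⟨bs r k.val + 1 + p.2.val, by have := p.2.isLt; omega⟩)

theorem rx_val (r : ℕ) (k : Fin 64) (i : Fin 4) :
    (i.val = 0 ∧ (rx r k i).1.val = bs r k.val + 1 ∧ (rx r k i).2.val = bs r k.val + (r + 2)) ∨
    (i.val = 1 ∧ (rx r k i).1.val = bs r k.val + (r + 2) ∧ (rx r k i).2.val = bs r k.val + 1) ∨
    (i.val = 2 ∧ (rx r k i).1.val = bs r k.val + 1 ∧ (rx r k i).2.val = bs r k.val - 1) ∨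
    (i.val = 3 ∧ (rx r k i).1.val = bs r k.val - 1 ∧ (rx r k i).2.val = bs r k.val + 1) := by
  fin_cases i
  · exact Or.inl ⟨rfl, rfl, rfl⟩
  · exact Or.inr (Or.inl ⟨rfl, rfl, rfl⟩)
  · exact Or.inr (Or.inr (Or.inl ⟨rfl, rfl, rfl⟩))
  · exact Or.inr (Or.inr (Or.inr ⟨rfl, rfl, rfl⟩))

theorem ix_val (r : ℕ) (k : Fin 64) (p : Fin r × Fin r) :
    (ix r k p).1.val = bs r k.val + 1 + p.1.val ∧ (ix r k p).2.val = bs r k.val + 1 + p.2.val :=
  ⟨rfl, rfl⟩

theorem geo : GeoStmt := by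
  intro r hr k
  obtain ⟨h1, h2⟩ := bs_bd r k
  refine ⟨rx r k, ix r k, ?_⟩
  have mk : ∀ u v : ℕ, u < RX r → v < RX r → ∃ p : Pos r, p.1.val = u ∧ p.2.val = v :=
    fun u v hu hv => ⟨(⟨u, hu⟩, ⟨v, hv⟩), rfl, rfl⟩
  constructor
  · intro i
    have := rx_val r k i
    simp only [rootX, Fin.ext_iff]
    show (i.val = 0 ∧ _) ∨ (i.val = 1 ∧ _) ∨ (i.val = 2 ∧ _) ∨ (i.val = 3 ∧ _)
    omega
  · exact lin_conn r k
  · intro i
    have := rx_val r k i
    rw [lin_iff]
    omega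
  · intro i j hij
    have hij' : i.val ≠ j.val := fun h => hij (Fin.ext h)
    rw [Set.disjoint_left]
    intro x hx hy
    rw [lin_iff] at hx hy
    omega
  · intro i l
    rw [Set.disjoint_left]
    intro x hx hy
    rw [lin_iff] at hx
    rw [blk_iff] at hy
    rcases bs_sep r k l with h | h | h
    · subst h
      omega
    · omega
    · omega
  · refine ⟨?_, ?_, ?_, ?_⟩
    · obtain ⟨p, hp, hp'⟩ := mk (bs r k.val + 1) (RX r - 1) (by omega) (by omega)
      exact ⟨p, lin_iff.2 (Or.inl ⟨rfl, by omega, by omega⟩), by omega⟩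
    · obtain ⟨p, hp, hp'⟩ := mk (RX r - 1) (bs r k.val + 1) (by omega) (by omega)
      exact ⟨p, lin_iff.2 (Or.inr (Or.inl ⟨rfl, by omega, by omega⟩)), by omega⟩
    · obtain ⟨p, hp, hp'⟩ := mk (bs r k.val + 1) 0 (by omega) (by omega)
      exact ⟨p, lin_iff.2 (Or.inr (Or.inr (Or.inl ⟨rfl, by omega, by omega⟩))), by omega⟩
    · obtain ⟨p, hp, hp'⟩ := mk 0 (bs r k.val + 1) (by omega) (by omega)
      exact ⟨p, lin_iff.2 (Or.inr (Or.inr (Or.inr ⟨rfl, by omega, by omega⟩))), by omega⟩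
  · exact arc_conn r k
  · intro i j hij
    have hij' : i.val ≠ j.val := fun h => hij (Fin.ext h)
    rw [Set.disjoint_left]
    intro x hx hy
    rw [arc_iff] at hx hy
    omega
  · intro i
    have hx := rx_val r k i
    rcases hx with ⟨hi, hx, hx'⟩ | ⟨hi, hx, hx'⟩ | ⟨hi, hx, hx'⟩ | ⟨hi, hx, hx'⟩
    · obtain ⟨p, hp, hp'⟩ := mk (bs r k.val + 1) (bs r k.val + (r + 1)) (by omega) (by omega)
      exact ⟨p, arc_iff.2 (by omega), grid_adj.2 (by omega)⟩
    · obtain ⟨p, hp, hp'⟩ := mk (bs r k.val + (r + 1)) (bs r k.val + 1) (by omega) (by omega)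
      exact ⟨p, arc_iff.2 (by omega), grid_adj.2 (by omega)⟩
    · obtain ⟨p, hp, hp'⟩ := mk (bs r k.val + 1) (bs r k.val) (by omega) (by omega)
      exact ⟨p, arc_iff.2 (by omega), grid_adj.2 (by omega)⟩
    · obtain ⟨p, hp, hp'⟩ := mk (bs r k.val) (bs r k.val + 1) (by omega) (by omega)
      exact ⟨p, arc_iff.2 (by omega), grid_adj.2 (by omega)⟩
  · intro p q h
    have e1 := congrArg (fun z : Pos r => z.1.val) h
    have e2 := congrArg (fun z : Pos r => z.2.val) h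
    simp only [ix_val] at e1 e2
    exact Prod.ext (Fin.ext (by omega)) (Fin.ext (by omega))
  · intro p q h
    rw [grid_adj] at h ⊢
    have := ix_val r k p
    have := ix_val r k q
    omega
  · intro p
    have := ix_val r k p
    have := p.1.isLt
    have := p.2.isLt
    rw [blk_iff]
    omega
  · intro p i h
    have := ix_val r k p
    have := p.1.isLt
    have := p.2.isLt
    rw [arc_iff] at h
    omega
  · intro p hp
    have h3 := ix_val r k p
    have h4 := p.1.isLt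
    have h5 := p.2.isLt
    obtain ⟨q, hq, hq'⟩ := mk (bs r k.val + 1 + p.1.val) (bs r k.val + (r + 1)) (by omega)
      (by omega)
    exact ⟨q, arc_iff.2 ⟨by omega, Or.inl ⟨rfl, by omega, by omega⟩⟩, grid_adj.2 (by omega)⟩
  · intro p hp
    have h3 := ix_val r k p
    have h4 := p.1.isLt
    have h5 := p.2.isLt
    obtain ⟨q, hq, hq'⟩ := mk (bs r k.val + (r + 1)) (bs r k.val + 1 + p.2.val) (by omega)
      (by omega)
    exact ⟨q, arc_iff.2 ⟨by omega, Or.inr (Or.inl ⟨rfl, by omega, by omega⟩)⟩,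
      grid_adj.2 (by omega)⟩
  · intro p hp
    have h3 := ix_val r k p
    have h4 := p.1.isLt
    have h5 := p.2.isLt
    obtain ⟨q, hq, hq'⟩ := mk (bs r k.val + 1 + p.1.val) (bs r k.val) (by omega) (by omega)
    exact ⟨q, arc_iff.2 ⟨by omega, Or.inr (Or.inr (Or.inl ⟨rfl, by omega, by omega⟩))⟩,
      grid_adj.2 (by omega)⟩
  · intro p hp
    have h3 := ix_val r k p
    have h4 := p.1.isLt
    have h5 := p.2.isLt
    obtain ⟨q, hq, hq'⟩ := mk (bs r k.val) (bs r k.val + 1 + p.2.val) (by omega) (by omega)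
    exact ⟨q, arc_iff.2 ⟨by omega, Or.inr (Or.inr (Or.inr ⟨rfl, by omega, by omega⟩))⟩,
      grid_adj.2 (by omega)⟩

end Vale.Agent.P235.XC.H666
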