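import Vale.Agent.P235.XC.Defs
import Vale.Agent.P235.XC.H487.Sel

/-!
# P235, line XC, row [X6] in the letters of XC/Defs (helper666, from helper487's `select`)
-/

set_option autoImplicit false

namespace Vale.Agent.P235.XC.H666

theorem ind : IndStmt := by
  intro f hf
  obtain ⟨g, hg, h⟩ := Vale.Agent.P235.XC.H487.select (V := Fin 64) (ι := Fin 64) 8
    (by simp) f (fun j => {j}) (fun i => Set.toFinite _) hf
    (by intro i j hij; simpa using hij)
  exact ⟨g, hg, fun i j hij hm => Set.disjoint_left.1 (h i j hij) hm rfl⟩

end Vale.Agent.P235.XC.H666
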