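import Vale.Agent.P235.XC.H666.Geo

/-!
# P235, line XC, row [X5b]: the blocks (helper666)
-/

set_option autoImplicit false

namespace Vale.Agent.P235.XC.H666

open SimpleGraph Vale.Agent.P235.H134 Vale.Agent.P235.XC

theorem blk_conn (r : ℕ) (k : Fin 64) : ((grid (RX r)).induce (blkX r k)).Connected := by
  obtain ⟨h1, h2⟩ := bs_bd r k
  refine rect_conn (bs r k.val) (bs r k.val + (r + 2)) (bs r k.val) (bs r k.val + (r + 2)) ?_
    (by omega) (by omega) (by omega) (by omega)
  intro x
  rw [blk_iff]
  omega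

theorem blk_disj (r : ℕ) (k l : Fin 64) (h : k ≠ l) : Disjoint (blkX r k) (blkX r l) := by
  rw [Set.disjoint_left]
  intro x hx hy
  rw [blk_iff] at hx hy
  rcases bs_sep r k l with h' | h' | h'
  · exact h h'
  · omega
  · omega

theorem blk_card (r : ℕ) (hr : 2 ≤ r) (k : Fin 64) : 3 ≤ (blkX r k).ncard := by
  obtain ⟨h1, h2⟩ := bs_bd r k
  let f : Fin 3 → Pos r := fun i => (⟨bs r k.val, by omega⟩, ⟨bs r k.val + i.val, by omega⟩)
  have hf : Function.Injective f := by
    intro i j h
    have e := congrArg (fun z : Pos r => z.2.val) h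
    have e' : bs r k.val + i.val = bs r k.val + j.val := e
    exact Fin.ext (by omega)
  have hs : Set.range f ⊆ blkX r k := by
    rintro _ ⟨i, rfl⟩
    have hi := i.isLt
    rw [blk_iff]
    show bs r k.val ≤ bs r k.val ∧ bs r k.val < bs r k.val + (r + 2) ∧
      bs r k.val ≤ bs r k.val + i.val ∧ bs r k.val + i.val < bs r k.val + (r + 2)
    omega
  have h3 : (Set.range f).ncard = 3 := by
    rw [← Set.image_univ, Set.ncard_image_of_injective _ hf, Set.ncard_univ]
    simp
  rw [← h3]
  exact Set.ncard_le_ncard hs (Set.toFinite _)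

theorem blocks : BlocksStmt := fun r hr =>
  ⟨blk_conn r, blk_disj r, blk_card r hr⟩

end Vale.Agent.P235.XC.H666
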