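import Vale.Agent.P235.XC.H666.Blocks
import Vale.Agent.P235.H452.Geo

/-! # P235, line XC, block [X4]: from a root of the block `k` to the block `l`, off three
vertices, in the letters of XC/Defs (text of helper456, adapted by helper666) -/

namespace Vale.Agent.P235.XC.H666

open SimpleGraph Vale.Agent.P235.H134 Vale.Agent.P235.XC
open Vale.Agent.P235.H452 (Rch hor ver adj_hor adj_ver)

/-- three points do not meet four disjoint sets -/
theorem pick4 {α : Type} [Finite α] (T : Set α) (hT : T.ncard ≤ 3) (g : Fin 4 → α → Prop)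
    (hg : ∀ x ∈ T, ∀ i j, g i x → g j x → i = j) : ∃ i, ∀ x ∈ T, ¬ g i x := by
  by_contra hcon
  push Not at hcon
  choose x hx hgx using hcon
  have hinj : Function.Injective x := fun i j h => hg (x i) (hx i) i j (hgx i) (h ▸ hgx j)
  have h1 : (x '' Set.univ).ncard = 4 := by
    rw [Set.ncard_image_of_injective _ hinj, Set.ncard_univ, Nat.card_eq_fintype_card,
      Fintype.card_fin]
  have h2 : (x '' Set.univ).ncard ≤ T.ncard := by
    refine Set.ncard_le_ncard ?_ (Set.toFinite T)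
    rintro _ ⟨i, -, rfl⟩
    exact hx i
  omega

section
variable {n : ℕ}

/-- one of four consecutive rows or columns is free -/
theorem pick (T : Set (Fin n × Fin n)) (hT : T.ncard ≤ 3) (f : Fin n × Fin n → Fin n) (a : ℕ)
    (ha : a + 4 ≤ n) : ∃ c : Fin n, a ≤ c.val ∧ c.val < a + 4 ∧ ∀ x ∈ T, f x ≠ c := by
  obtain ⟨i, hi⟩ := pick4 T hT (fun i x => (f x).val = a + i.val)
    (fun x _ i j h1 h2 => Fin.ext (by omega))
  have h4 := i.isLt
  refine ⟨⟨a + i.val, by omega⟩, by simp, by simp only; omega, fun x hx h => hi x hx ?_⟩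
  rw [h]

end

theorem sep : SepStmt := by
  intro r hr k l hkl T hT hTl
  classical
  obtain ⟨hk0, hkn⟩ := bs_bd r k
  obtain ⟨hl0, hln⟩ := bs_bd r l
  have hsep : bs r k.val + (r + 6) ≤ bs r l.val ∨ bs r l.val + (r + 6) ≤ bs r k.val :=
    (bs_sep r k l).resolve_left hkl
  -- clear rows and columns
  let cr : Fin (RX r) → Prop := fun ρ =>
    (∀ x ∈ T, x.1 ≠ ρ) ∧ (ρ.val < bs r k.val ∨ (bs r k.val + (r + 2)) ≤ ρ.val)
  let cc : Fin (RX r) → Prop := fun c =>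
    (∀ x ∈ T, x.2 ≠ c) ∧ (c.val < bs r k.val ∨ (bs r k.val + (r + 2)) ≤ c.val)
  let Z0 : Set (Fin (RX r) × Fin (RX r)) := {x | cr x.1 ∨ cc x.2}
  obtain ⟨ρ0, hρ0, hρ0', hρT⟩ := pick T hT Prod.fst 0 (by omega)
  obtain ⟨c0, hc0, hc0', hcT⟩ := pick T hT Prod.snd 0 (by omega)
  have hρ : cr ρ0 := ⟨hρT, Or.inl (by omega)⟩
  have hc : cc c0 := ⟨hcT, Or.inl (by omega)⟩
  obtain ⟨ρ1, hρ1, hρ1', hρ1T⟩ := pick T hT Prod.fst (RX r - 4) (by omega)
  have hρe : cr ρ1 := ⟨hρ1T, Or.inr (by omega)⟩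
  obtain ⟨c1, hc1, hc1', hc1T⟩ := pick T hT Prod.snd (RX r - 4) (by omega)
  have hce : cc c1 := ⟨hc1T, Or.inr (by omega)⟩
  have hZT : Disjoint Z0 T := by
    rw [Set.disjoint_left]
    rintro x (h | h) hx
    · exact h.1 x hx rfl
    · exact h.1 x hx rfl
  have hZk : Disjoint Z0 (blkX r k) := by
    rw [Set.disjoint_left]
    rintro x (h | h) ⟨h1, h2, h3, h4⟩
    · have := h.2
      omega
    · have := h.2
      omega
  -- everything reaches the base point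
  have base : ∀ Z : Set (Fin (RX r) × Fin (RX r)), Z0 ⊆ Z → ∀ x : Fin (RX r) × Fin (RX r),
      cr x.1 ∨ cc x.2 → Rch Z x (ρ0, c0) := by
    rintro Z hZ ⟨a, b⟩ (h | h)
    · refine (hor Z a 0 (RX r) (fun t _ _ => hZ (Or.inl h)) b c0 (Nat.zero_le _) b.isLt.le
        (Nat.zero_le _) c0.isLt.le).trans ?_
      exact ver Z c0 0 (RX r) (fun t _ _ => hZ (Or.inr hc)) a ρ0 (Nat.zero_le _) a.isLt.le
        (Nat.zero_le _) ρ0.isLt.le
    · refine (ver Z b 0 (RX r) (fun t _ _ => hZ (Or.inr h)) a ρ0 (Nat.zero_le _) a.isLt.le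
        (Nat.zero_le _) ρ0.isLt.le).trans ?_
      exact hor Z ρ0 0 (RX r) (fun t _ _ => hZ (Or.inl hρ)) b c0 (Nat.zero_le _) b.isLt.le
        (Nat.zero_le _) c0.isLt.le
  have bl : ∀ Z : Set (Fin (RX r) × Fin (RX r)), Z0 ⊆ Z → blkX r l ⊆ Z → ∀ x ∈ blkX r l,
      Rch Z x (ρ0, c0) := by
    -- a free row or a free column of the block `l`
    have hfree : (∃ ρ : Fin (RX r), bs r l.val ≤ ρ.val ∧ ρ.val < (bs r l.val + (r + 2)) ∧ cr ρ) ∨
        ∃ c : Fin (RX r), bs r l.val ≤ c.val ∧ c.val < (bs r l.val + (r + 2)) ∧ cc c := by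
      obtain ⟨i, hi⟩ := pick4 T hT (fun i x => (i.val < 3 ∧ x.1.val = bs r l.val + i.val) ∨
        (i.val = 3 ∧ x.2.val = bs r l.val)) (by
          intro x hx i j h1 h2
          have hxl : ¬ (bs r l.val ≤ x.1.val ∧ x.1.val < (bs r l.val + (r + 2)) ∧
              bs r l.val ≤ x.2.val ∧ x.2.val < (bs r l.val + (r + 2))) :=
            fun h => Set.disjoint_left.1 hTl hx h
          have hi4 := i.isLt
          have hj4 := j.isLt
          apply Fin.ext
          omega)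
      rcases lt_or_ge i.val 3 with h3 | h3
      · left
        refine ⟨⟨bs r l.val + i.val, by omega⟩, by simp, by simp only; omega, ?_, ?_⟩
        · intro x hx h
          exact hi x hx (Or.inl ⟨h3, by rw [h]⟩)
        · simp only
          omega
      · right
        have hi4 := i.isLt
        refine ⟨⟨bs r l.val, by omega⟩, by simp, by simp only; omega, ?_, ?_⟩
        · intro x hx h
          exact hi x hx (Or.inr ⟨by omega, by rw [h]⟩)
        · simp only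
          omega
    rintro Z hZ hZl ⟨a, b⟩ ⟨h1, h2, h3, h4⟩
    simp only at h1 h2 h3 h4
    rcases hfree with ⟨ρl, hρl, hρl', hρlc⟩ | ⟨cl, hcl, hcl', hclc⟩
    · refine (ver Z b (bs r l.val) ((bs r l.val + (r + 2)) - 1) (fun t ht1 ht2 => hZl ?_) a ρl h1
        (by omega) hρl (by omega)).trans (base Z hZ _ (Or.inl hρlc))
      exact ⟨ht1, by simp only; omega, h3, h4⟩
    · refine (hor Z a (bs r l.val) ((bs r l.val + (r + 2)) - 1) (fun t ht1 ht2 => hZl ?_) b cl h3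
        (by omega) hcl (by omega)).trans (base Z hZ _ (Or.inr hclc))
      exact ⟨h1, h2, ht1, by simp only; omega⟩
  have hlk : Disjoint (blkX r l) (blkX r k) := by
    rw [Set.disjoint_left]
    rintro x ⟨h1, h2, h3, h4⟩ ⟨h1', h2', h3', h4'⟩
    omega
  -- the free line
  obtain ⟨i, hi⟩ := pick4 T hT (fun i x => x ∈ linX r k i) (by
    intro x hx i j h1 h2
    rcases h1 with ⟨hi, h1, h1'⟩ | ⟨hi, h1, h1'⟩ | ⟨hi, h1, h1'⟩ | ⟨hi, h1, h1'⟩ <;>
    rcases h2 with ⟨hj, h2, h2'⟩ | ⟨hj, h2, h2'⟩ | ⟨hj, h2, h2'⟩ | ⟨hj, h2, h2'⟩ <;>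
    first
      | exact hi.trans hj.symm
      | (exfalso; omega))
  have hlT : Disjoint (linX r k i) T := by
    rw [Set.disjoint_left]
    exact fun x h hx => hi x hx h
  have hlk2 : Disjoint (linX r k i) (blkX r k) := by
    rw [Set.disjoint_left]
    rintro x h ⟨h1, h2, h3, h4⟩
    rcases h with ⟨-, h, h'⟩ | ⟨-, h, h'⟩ | ⟨-, h, h'⟩ | ⟨-, h, h'⟩ <;> omega
  have hroot : ∀ x, rootX r k i x → x ∈ linX r k i := by
    rintro x (⟨h0, h1, h2⟩ | ⟨h0, h1, h2⟩ | ⟨h0, h1, h2⟩ | ⟨h0, h1, h2⟩)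
    · exact Or.inl ⟨h0, h1, h2.ge⟩
    · exact Or.inr (Or.inl ⟨h0, h1.ge, h2⟩)
    · exact Or.inr (Or.inr (Or.inl ⟨h0, h1, by omega⟩))
    · exact Or.inr (Or.inr (Or.inr ⟨h0, by omega, h2⟩))
  have hline : ∀ Z : Set (Fin (RX r) × Fin (RX r)), Z0 ⊆ Z → linX r k i ⊆ Z → ∀ x ∈ linX r k i,
      Rch Z x (ρ0, c0) := by
    rintro Z hZ hPZ ⟨a, b⟩ (⟨hi0, h, h'⟩ | ⟨hi0, h, h'⟩ | ⟨hi0, h, h'⟩ | ⟨hi0, h, h'⟩)
    · simp only at h h'
      refine (hor Z a (bs r k.val + (r + 2)) (RX r) (fun t ht _ => hPZ (Or.inl ⟨hi0, h, ht⟩)) b c1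
        h' b.isLt.le (by omega) c1.isLt.le).trans (base Z hZ _ (Or.inr hce))
    · simp only at h h'
      refine (ver Z b (bs r k.val + (r + 2)) (RX r) (fun t ht _ =>
        hPZ (Or.inr (Or.inl ⟨hi0, ht, h'⟩))) a ρ1 h a.isLt.le (by omega) ρ1.isLt.le).trans (base Z hZ _ (Or.inl hρe))
    · simp only at h h'
      refine (hor Z a 0 (bs r k.val - 1) (fun t _ ht => hPZ (Or.inr (Or.inr (Or.inl
        ⟨hi0, h, ?_⟩)))) b c0 (Nat.zero_le _) (by omega) (Nat.zero_le _) (by omega)).trans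
        (base Z hZ _ (Or.inr hc))
      simp only
      omega
    · simp only at h h'
      refine (ver Z b 0 (bs r k.val - 1) (fun t _ ht => hPZ (Or.inr (Or.inr (Or.inr
        ⟨hi0, ?_, h'⟩)))) a ρ0 (Nat.zero_le _) (by omega) (Nat.zero_le _) (by omega)).trans
        (base Z hZ _ (Or.inl hρ))
      simp only
      omega
  refine ⟨i, Z0 ∪ blkX r l ∪ linX r k i, ?_, fun x hx => Or.inr (hroot x hx), ?_, ?_, ?_, ?_⟩
  · have hb : (ρ0, c0) ∈ Z0 ∪ blkX r l ∪ linX r k i := Or.inl (Or.inl (Or.inl hρ))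
    have hall : ∀ x ∈ Z0 ∪ blkX r l ∪ linX r k i, Rch (Z0 ∪ blkX r l ∪ linX r k i) x (ρ0, c0) := by
      rintro x ((h | h) | h)
      · exact base _ (fun y hy => Or.inl (Or.inl hy)) x h
      · exact bl _ (fun y hy => Or.inl (Or.inl hy)) (fun y hy => Or.inl (Or.inr hy)) x h
      · exact hline _ (fun y hy => Or.inl (Or.inl hy)) (fun y hy => Or.inr hy) x h
    have : Nonempty (Z0 ∪ blkX r l ∪ linX r k i : Set (Fin (RX r) × Fin (RX r))) := ⟨⟨_, hb⟩⟩
    refine Connected.mk fun x y => ?_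
    obtain ⟨_, _, h1⟩ := hall x.1 x.2
    obtain ⟨_, _, h2⟩ := hall y.1 y.2
    exact h1.trans h2.symm
  · obtain ⟨x, inn, hg⟩ := geo r hr k
    exact ⟨x i, hg.root i⟩
  · obtain ⟨x, hx⟩ := (blk_conn r l).nonempty
    exact ⟨x, Or.inl (Or.inr hx), hx⟩
  · rw [Set.disjoint_union_left, Set.disjoint_union_left]
    exact ⟨⟨hZk, hlk⟩, hlk2⟩
  · rw [Set.disjoint_union_left, Set.disjoint_union_left]
    exact ⟨⟨hZT, hTl.symm⟩, hlT⟩

end Vale.Agent.P235.XC.H666
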